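import Mathlib
import Vale.Agent.P329.GrpMain

/-!
Every language recognised by a finite group dividing a product of groups that are abelian by
elementary abelian (any prime) has generalized star height at most one.
-/

namespace Vale.Agent.Results.P329.AbelianByElementary

open Vale.Agent.P329 Vale.Agent.P329.Grp

theorem result (α : Type) [Fintype α] {ι : Type} [Fintype ι] (G : ι → Type) [∀ i, Group (G i)]
    [∀ i, Finite (G i)] (hG : ∀ i, AbelianByElementary (G i))
    (H : Subgroup ((i : ι) → G i)) (M : Type) [Group M] (π : H →* M)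
    (hπ : Function.Surjective π) (φ : FreeMonoid α →* M) (S : Set M) :
    ∃ P : H36.Expr α, P.height ≤ 1 ∧
      ∀ w : List α, w ∈ P.lang ↔ φ (FreeMonoid.ofList w) ∈ S := by
  classical
  choose h hh using fun b : α => hπ (φ (FreeMonoid.of b))
  have hprod : ∀ w : List α, ((w.map fun b => ((h b : H) : (i : ι) → G i)).prod
      = (((w.map h).prod : H) : (i : ι) → G i)) ∧
      π (w.map h).prod = φ (FreeMonoid.ofList w) := by
    intro w
    induction w with
    | nil => simp
    | cons b w ih =>
      constructor
      · simp [ih.1]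
      · rw [List.map_cons, List.prod_cons, map_mul, ih.2, hh, FreeMonoid.ofList_cons, map_mul]
  obtain ⟨P, hP, e⟩ := ht_group_prod G hG (fun b => ((h b : H) : (i : ι) → G i))
    (fun x => ∃ y : H, (y : (i : ι) → G i) = x ∧ π y ∈ S)
  refine ⟨P, hP, fun w => ?_⟩
  rw [e, mem_lg]
  constructor
  · rintro ⟨y, hy, hS⟩
    have : y = (w.map h).prod := Subtype.ext (by rw [hy, (hprod w).1])
    rwa [this, (hprod w).2] at hS
  · intro hS
    exact ⟨(w.map h).prod, ((hprod w).1).symm, by rwa [(hprod w).2]⟩

end Vale.Agent.Results.P329.AbelianByElementary
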